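import Vale.Agent.N071.Quant

/-!
# P071: hot spots for simply connected planar domains, with an explicit universal gap
-/

open MeasureTheory Metric

namespace Vale.Agent.Results.P071.A0Quantitative

open Vale.Agent.P071

/-- (1) **Universal gap.** For every nonzero `u ∈ V(Ω)` of a bounded simply connected planar
Lipschitz domain, `min_{∂Ω} u < 0 < max_{∂Ω} u` and, with `θ(x) = 1 - μ₁(Ω) dist(x, ∂Ω)² / 10⁶`,
`θ(x) min_{∂Ω} u ≤ u(x) ≤ θ(x) max_{∂Ω} u` in `Ω`.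

(2) **Local form**, also when `H¹(Ω)` is only compactly embedded in `L²(Ω)`: if `u ≤ M` on a disc
`B(x, r) ⊆ Ω` then `u(x) ≤ (1 - μ₁ r² / 10⁶) M`.

(3) The hypotheses of (1) can be met on every such domain: `V(Ω)` has a nonzero element which is
continuous on the closure. -/
theorem result :
    (∀ Ω : Set ℂ, IsOpen Ω → Bornology.IsBounded Ω → IsSimplyConnected Ω →
      LipschitzBoundary Ω → ∀ u : ℂ → ℝ, InV Ω u → ContinuousOn u (closure Ω) →
      (∃ z ∈ Ω, u z ≠ 0) →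
      ∃ a ∈ frontier Ω, ∃ b ∈ frontier Ω, (∀ y ∈ frontier Ω, u a ≤ u y ∧ u y ≤ u b) ∧
        u a < 0 ∧ 0 < u b ∧ ∀ x ∈ Ω,
          (1 - muOne Ω * infDist x (frontier Ω) ^ 2 / 10 ^ 6) * u a ≤ u x ∧
          u x ≤ (1 - muOne Ω * infDist x (frontier Ω) ^ 2 / 10 ^ 6) * u b) ∧
    (∀ Ω : Set ℂ, IsOpen Ω → Bornology.IsBounded Ω → IsSimplyConnected Ω →
      (LipschitzBoundary Ω ∨ CompactEmbedding Ω) → ∀ u : ℂ → ℝ, InV Ω u → ContinuousOn u Ω →
      (∃ z ∈ Ω, u z ≠ 0) →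
      ∀ (x : ℂ) (r M : ℝ), 0 < r → ball x r ⊆ Ω → (∀ y ∈ ball x r, u y ≤ M) →
        u x ≤ (1 - muOne Ω * r ^ 2 / 10 ^ 6) * M) ∧
    (∀ Ω : Set ℂ, IsOpen Ω → Bornology.IsBounded Ω → IsSimplyConnected Ω →
      LipschitzBoundary Ω →
      ∃ u : ℂ → ℝ, InV Ω u ∧ ContinuousOn u (closure Ω) ∧ ∃ z ∈ Ω, u z ≠ 0) := by
  refine ⟨fun Ω ho hb hs hL u hu hc h0 => ?_,
    fun Ω ho hb hs hΩ u hu hc h0 => ?_, fun Ω ho hb hs hL => ?_⟩
  · exact Quant.global_est ho hb hs hL hu hc h0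
  · exact fun x r M hr hB hM =>
      Quant.local_est ho hb hs (NC.tight_of_or ho hb hΩ) hu hc h0 hr hB hM
  · have hT := NC.tight_of_or ho hb (Or.inl hL)
    have hver : ∀ u : ℂ → ℝ, InV Ω u → ∃ w : ℂ → ℝ, (∀ᵐ z ∂(volume.restrict Ω), w z = u z) ∧
        InV Ω w ∧ ContinuousOn w (closure Ω) := by
      intro u hu
      obtain ⟨w, -, h1, h2, h3⟩ := NC.exists_version ho hu
      exact ⟨w, h1, h2, h3 hL⟩
    obtain ⟨u, hu, hn⟩ := Quant.exists_inV ho hb hs hT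
    obtain ⟨w, h1, h2, h3⟩ := hver u hu
    refine ⟨w, h2, h3, ?_⟩
    by_contra hcon
    push Not at hcon
    have h4 : ∫ z in Ω, u z ^ 2 = ∫ _ in Ω, (0 : ℝ) := by
      refine integral_congr_ae ?_
      filter_upwards [h1, ae_restrict_mem ho.measurableSet] with z k1 k2
      rw [← k1, hcon z k2]
      norm_num
    rw [hn, integral_zero] at h4
    exact one_ne_zero h4

end Vale.Agent.Results.P071.A0Quantitative
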